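import Vale.Agent.P014U.X4F.En.Big
import Vale.Agent.P014U.X4M.TE.Irr

/-! # P014U: the Tate module at the odd prime satisfies `Rep`; the row BIG (helper7) -/

set_option linter.all false

noncomputable section

namespace Vale.Agent.P014U.X4F.En

open NumberField Matrix
open Vale.Agent.P014U.X4M.TE
open Vale.Agent.P014U.X4S (ep ep_mul ep_one)

variable [Pp] {A B : ℤ} (hD : 4 * (A : ℚ) ^ 3 + 27 * (B : ℚ) ^ 2 ≠ 0)

theorem mt_rep (g : GQ) (i j : Fin 2) : X4S.mt (rep hD) g i j = (mt hD g i j : ℤ_[pp]) := rfl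

theorem ex_int (v : X4S.V) : ∃ (k : ℕ) (w : Fin 2 → ℤ_[pp]), ∀ i, (w i : ℚ_[pp]) = pp ^ k * v i := by
  obtain ⟨k, hk⟩ := pow_unbounded_of_one_lt ‖v‖ (Nat.one_lt_cast.2 one_lt : (1 : ℝ) < pp)
  refine ⟨k, fun i => ⟨pp ^ k * v i, ?_⟩, fun _ => rfl⟩
  rw [norm_mul, norm_pow, Padic.norm_p, inv_pow,
    inv_mul_le_iff₀ (pow_pos (Nat.cast_pos.2 pp_pos) k), mul_one]
  exact (norm_le_pi_norm v i).trans hk.le

theorem tr_frob {l : ℕ} (hl : l.Prime) (hg : ¬ (l : ℤ) ∣ 2 * pp * (4 * A ^ 3 + 27 * B ^ 2)) {g : GQ}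
    (h : P022.IsFrob l g) : ∃ t : ℤ, t ^ 2 ≤ 4 * l ∧ (X4S.mt (rep hD) g).trace = t ∧
      X4S.ep (rep hD) g = l := by
  have : Fact l.Prime := ⟨hl⟩
  obtain ⟨h1, h2⟩ := frob_mt hD hg h
  refine ⟨-cs (A : ZMod l) (B : ZMod l), by rw [neg_sq]; exact cs_le (hg_two hg), ?_, ?_⟩
  · rw [X4S.mt, rep_val, RingHom.mapMatrix_apply, ← AddMonoidHom.map_trace, h1]
    simp
  · rw [X4S.ep, X4S.mt, rep_val, ← RingHom.map_det, h2, map_natCast]

/-- **the hypotheses of the block SMITH** -/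
theorem rep_ok {S : Finset ℕ} (h2 : pp ∈ S)
    (hS : ∀ l : ℕ, l.Prime → l ∉ S → ¬ (l : ℤ) ∣ 2 * pp * (4 * A ^ 3 + 27 * B ^ 2)) :
    X4S.Rep (rep hD) S where
  cont i j := continuous_subtype_val.comp (cont_mt hD i j)
  int g i j := (mt hD g i j).2
  two := h2
  unr l hl h := haveI := Fact.mk hl; unr_rep hD (hS l hl h)
  frob l hl h g hg := by
    obtain ⟨t, h1, h3, h4⟩ := tr_frob hD hl (hS l hl h) hg
    have h5 : (2 : ℤ) ≤ l := by exact_mod_cast hl.two_le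
    refine ⟨h4, fun e => ?_, fun e => ?_⟩ <;> rw [h3] at e
    · obtain rfl : t = l + 1 := by exact_mod_cast e
      nlinarith
    · obtain rfl : t = -(l + 1) := by exact_mod_cast e
      nlinarith
  irr v hv := by
    let f := algebraMap ℚ_[pp] (AlgebraicClosure ℚ_[pp])
    obtain ⟨g, hg⟩ := irr_rep hD (fun i => f (v i)) fun e => hv (funext fun i =>
      f.injective ((congrFun e i).trans (map_zero f).symm))
    refine ⟨g, fun a e => hg (f a) (funext fun i => ?_)⟩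
    have := congrArg f (congrFun e i)
    simpa only [mulVec, dotProduct, Fin.sum_univ_two, map_add, map_mul, Pi.smul_apply,
      smul_eq_mul, Matrix.map_apply] using this

theorem ex_rep : ∃ S, X4S.Rep (rep hD) S ∧
    ∀ l : ℕ, l.Prime → l ∉ S → ¬ (l : ℤ) ∣ 2 * pp * (4 * A ^ 3 + 27 * B ^ 2) := by
  have h0 : (2 * pp * (4 * A ^ 3 + 27 * B ^ 2)).natAbs ≠ 0 := by
    rw [Int.natAbs_ne_zero]
    exact mul_ne_zero (mul_ne_zero two_ne_zero (Nat.cast_ne_zero.2 pp_ne)) (by exact_mod_cast hD)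
  have hS : ∀ l : ℕ, l.Prime → l ∉ (2 * pp * (4 * A ^ 3 + 27 * B ^ 2)).natAbs.primeFactors →
      ¬ (l : ℤ) ∣ 2 * pp * (4 * A ^ 3 + 27 * B ^ 2) := fun l hl h k =>
    h (Nat.mem_primeFactors.2 ⟨hl, Int.natCast_dvd.1 k, h0⟩)
  exact ⟨_, rep_ok hD (by_contra fun k => hS pp pp_prime k ((dvd_mul_left _ _).mul_right _)) hS, hS⟩

/-- **row BIG**: a big commutator -/
theorem big0 : ∃ x g, Big (rep hD) (x * g * x⁻¹ * g⁻¹) := by
  obtain ⟨S, h, hS⟩ := ex_rep hD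
  obtain ⟨l, g, hl, h1, h2, h3⟩ := P022K.Cheb.exists_fr (h.Kn_open 3) (h.Kn 3).one_mem _
  obtain ⟨t, -, h4, h5⟩ := tr_frob hD hl (hS l hl h1) h2
  let f := algebraMap ℚ_[pp] (AlgebraicClosure ℚ_[pp])
  let ρ : P022.GQ →* Matrix (Fin 2) (Fin 2) (AlgebraicClosure ℚ_[pp]) :=
    f.mapMatrix.toMonoidHom.comp ((Units.coeHom _).comp (rep hD))
  have t1 : ∀ x, (ρ x).trace = f (X4S.mt (rep hD) x).trace := fun x =>
    (AddMonoidHom.map_trace f _).symm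
  have t2 : (ρ g).det = f (ep (rep hD) g) := (RingHom.map_det f _).symm
  obtain ⟨x, hx⟩ := ex_comm two_ne_zero ρ (irr_rep hD) (g := g) (by
    rw [t1, t2, h4, h5, map_intCast, map_natCast]
    intro e
    have e1 : t ^ 2 = 4 * l := by exact_mod_cast e
    obtain ⟨u, rfl⟩ : 2 ∣ t := Int.prime_two.dvd_of_dvd_pow (n := 2) ⟨2 * l, by linarith⟩
    exact hl.prime.not_isSquare ⟨u.natAbs, by
      rw [← Int.natAbs_mul, show u * u = l by linarith, Int.natAbs_natCast]⟩)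
  refine ⟨x, g, ?_, h.tr_mul (h.tr_conj h3 x) (h.tr_inv h3), fun e => hx ?_⟩
  · rw [ep_mul, ep_conj, ← ep_mul, mul_inv_cancel, ep_one]
  · rw [t1, e, map_ofNat]

theorem big : ∃ k, Big (rep hD) k := (big0 hD).elim fun _ h => h.elim fun _ h => ⟨_, h⟩

end Vale.Agent.P014U.X4F.En
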